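import Vale.Agent.P366.H896.D.C

/-! P366, Gauss-Codazzi: the commutator of the covariant derivatives along a hypersurface. -/

open MeasureTheory Metric Filter Topology Set
open scoped ContDiff

noncomputable section
namespace Vale.Agent.P366.GC
open Vale.Agent.P366.Stmt Vale.Agent.P366.T2
open Vale.Agent.P366.H896 (CR pd_comm)
open Vale.Agent.P366.Kerr (pt tng con indG indK lapse ein ric)

variable {n : ℕ} {G : Stmt.Field (n + 1)} {f : E n → ℝ} {U : Set (E (n + 1))} {W : Set (E n)}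
  {X Y : Fin (n + 1) → E n → ℝ} {y : E n}

lemma hp_Dv (hS : Sl G f U W) (hX : ∀ a, CR 2 W (X a)) (hy : y ∈ W) (i j : Fin n)
    (a : Fin (n + 1)) : HP i (Dv G f j X a) (Stmt.pd i (Stmt.pd j (X a)) y + ∑ b, ∑ c,
      (((∑ e, Tv f i e y * Stmt.pd e (Stmt.chr G a b c) (pt (f y) y)) * Tv f j b y +
        Stmt.chr G a b c (pt (f y) y) * Stmt.pd i (Tv f j b) y) * X c y +
        Stmt.chr G a b c (pt (f y) y) * Tv f j b y * Stmt.pd i (X c) y)) y := by
  have h1 : HP i (Stmt.pd j (X a)) (Stmt.pd i (Stmt.pd j (X a)) y) y :=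
    CR.hp (r := 0) (CR.pd hS.opW (hX a) j) hy i
  have h2 : ∀ b c, HP i (fun y => Stmt.chr G a b c (pt (f y) y)) (∑ e, Tv f i e y *
      Stmt.pd e (Stmt.chr G a b c) (pt (f y) y)) y := fun b c =>
    hp_comp hS hy ((hS.met.cr_chr a b c).le (by norm_num)) i
  have h3 : ∀ b, HP i (Tv f j b) (Stmt.pd i (Tv f j b) y) y := fun b =>
    CR.hp (r := 3) (cr_T hS j b) hy i
  have h4 : ∀ c, HP i (X c) (Stmt.pd i (X c) y) y := fun c => CR.hp (r := 1) (hX c) hy i
  exact h1.add (HP.sum _ fun b _ => HP.sum _ fun c _ => ((h2 b c).mul (h3 b)).mul (h4 c))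

/-- The algebra of the commutator. -/
lemma comm_alg {m : ℕ} (Γ : Fin m → Fin m → Fin m → ℝ) (d : Fin m → Fin m → Fin m → ℝ)
    (P Q x p q r : Fin m → ℝ) (u : ℝ) (a : Fin m) :
    (u + ∑ b, ∑ c, (((∑ e, P e * d e b c) * Q b + Γ a b c * r b) * x c +
        Γ a b c * Q b * p c)) +
      ∑ b, ∑ c, Γ a b c * P b * (q c + ∑ s, ∑ t, Γ c s t * Q s * x t) -
    ((u + ∑ b, ∑ c, (((∑ e, Q e * d e b c) * P b + Γ a b c * r b) * x c +
        Γ a b c * P b * q c)) +
      ∑ b, ∑ c, Γ a b c * Q b * (p c + ∑ s, ∑ t, Γ c s t * P s * x t)) =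
    ∑ b, ∑ c, ∑ e, (d c e b - d e c b + ∑ s, (Γ a c s * Γ s e b - Γ a e s * Γ s c b)) *
      x b * P c * Q e := by
  have h1 : ∀ P Q p q : Fin m → ℝ,
      (u + ∑ b, ∑ c, (((∑ e, P e * d e b c) * Q b + Γ a b c * r b) * x c +
        Γ a b c * Q b * p c)) +
      ∑ b, ∑ c, Γ a b c * P b * (q c + ∑ s, ∑ t, Γ c s t * Q s * x t) =
      (u + ∑ b, ∑ c, Γ a b c * r b * x c + ∑ b, ∑ c, Γ a b c * Q b * p c +
        ∑ b, ∑ c, Γ a b c * P b * q c) +
      (∑ b, ∑ c, ∑ e, d c e b * x b * P c * Q e +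
        ∑ b, ∑ c, ∑ e, ∑ s, Γ a c s * Γ s e b * x b * P c * Q e) := by
    intro P Q p q
    have e1 : ∑ b, ∑ c, (((∑ e, P e * d e b c) * Q b + Γ a b c * r b) * x c +
        Γ a b c * Q b * p c) = ∑ b, ∑ c, (∑ e, P e * d e b c) * Q b * x c +
        ∑ b, ∑ c, Γ a b c * r b * x c + ∑ b, ∑ c, Γ a b c * Q b * p c := by
      simp only [← Finset.sum_add_distrib]
      exact Finset.sum_congr rfl fun b _ => Finset.sum_congr rfl fun c _ => by ring
    have e2 : ∑ b, ∑ c, (∑ e, P e * d e b c) * Q b * x c =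
        ∑ b, ∑ c, ∑ e, d c e b * x b * P c * Q e := by
      rw [Finset.sum_comm]
      refine Finset.sum_congr rfl fun c _ => ?_
      calc ∑ b, (∑ e, P e * d e b c) * Q b * x c = ∑ b, ∑ e, d e b c * x c * P e * Q b := by
            refine Finset.sum_congr rfl fun b _ => ?_
            rw [Finset.sum_mul, Finset.sum_mul]
            exact Finset.sum_congr rfl fun e _ => by ring
        _ = _ := Finset.sum_comm
    have e3 : ∑ b, ∑ c, Γ a b c * P b * (q c + ∑ s, ∑ t, Γ c s t * Q s * x t) =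
        ∑ b, ∑ c, Γ a b c * P b * q c +
        ∑ b, ∑ c, ∑ e, ∑ s, Γ a c s * Γ s e b * x b * P c * Q e := by
      have e5 : ∀ b c, Γ a b c * P b * (q c + ∑ s, ∑ t, Γ c s t * Q s * x t) =
          Γ a b c * P b * q c + ∑ s, ∑ t, Γ a b c * Γ c s t * x t * P b * Q s := by
        intro b c
        rw [mul_add, Finset.mul_sum]
        congr 1
        refine Finset.sum_congr rfl fun s _ => ?_
        rw [Finset.mul_sum]
        exact Finset.sum_congr rfl fun t _ => by ring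
      simp only [e5, Finset.sum_add_distrib]
      congr 1
      calc ∑ b, ∑ c, ∑ s, ∑ t, Γ a b c * Γ c s t * x t * P b * Q s
          = ∑ b, ∑ s, ∑ c, ∑ t, Γ a b c * Γ c s t * x t * P b * Q s :=
            Finset.sum_congr rfl fun b _ => Finset.sum_comm
        _ = ∑ b, ∑ s, ∑ t, ∑ c, Γ a b c * Γ c s t * x t * P b * Q s :=
            Finset.sum_congr rfl fun b _ => Finset.sum_congr rfl fun s _ => Finset.sum_comm
        _ = ∑ b, ∑ t, ∑ s, ∑ c, Γ a b c * Γ c s t * x t * P b * Q s :=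
            Finset.sum_congr rfl fun b _ => Finset.sum_comm
        _ = _ := Finset.sum_comm
    rw [e1, e2, e3]
    ring
  rw [h1 P Q p q, h1 Q P q p]
  have e4 : ∑ b, ∑ c, ∑ e, (d c e b - d e c b + ∑ s, (Γ a c s * Γ s e b - Γ a e s * Γ s c b)) *
      x b * P c * Q e = (∑ b, ∑ c, ∑ e, d c e b * x b * P c * Q e +
        ∑ b, ∑ c, ∑ e, ∑ s, Γ a c s * Γ s e b * x b * P c * Q e) -
      (∑ b, ∑ c, ∑ e, d c e b * x b * Q c * P e +
        ∑ b, ∑ c, ∑ e, ∑ s, Γ a c s * Γ s e b * x b * Q c * P e) := by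
    have e5 : ∀ b, ∑ c, ∑ e, d c e b * x b * Q c * P e = ∑ c, ∑ e, d e c b * x b * P c * Q e := by
      intro b
      rw [Finset.sum_comm]
      exact Finset.sum_congr rfl fun c _ => Finset.sum_congr rfl fun e _ => by ring
    have e6 : ∀ b, ∑ c, ∑ e, ∑ s, Γ a c s * Γ s e b * x b * Q c * P e =
        ∑ c, ∑ e, ∑ s, Γ a e s * Γ s c b * x b * P c * Q e := by
      intro b
      rw [Finset.sum_comm]
      exact Finset.sum_congr rfl fun c _ => Finset.sum_congr rfl fun e _ =>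
        Finset.sum_congr rfl fun s _ => by ring
    simp only [e5, e6, ← Finset.sum_add_distrib, ← Finset.sum_sub_distrib]
    refine Finset.sum_congr rfl fun b _ => Finset.sum_congr rfl fun c _ =>
      Finset.sum_congr rfl fun e _ => ?_
    have e7 : (∑ s, Γ a c s * Γ s e b * x b * P c * Q e) =
        (∑ s, Γ a c s * Γ s e b) * (x b * P c * Q e) := by
      rw [Finset.sum_mul]
      exact Finset.sum_congr rfl fun s _ => by ring
    have e8 : (∑ s, Γ a e s * Γ s c b * x b * P c * Q e) =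
        (∑ s, Γ a e s * Γ s c b) * (x b * P c * Q e) := by
      rw [Finset.sum_mul]
      exact Finset.sum_congr rfl fun s _ => by ring
    rw [e7, e8, Finset.sum_sub_distrib]
    ring
  rw [e4]
  ring

theorem comm (hS : Sl G f U W) (hX : ∀ a, CR 2 W (X a)) (hy : y ∈ W) (i j : Fin n)
    (a : Fin (n + 1)) :
    Dv G f i (Dv G f j X) a y - Dv G f j (Dv G f i X) a y =
      ∑ b, ∑ c, ∑ d, Rm G a b c d (pt (f y) y) * X b y * Tv f i c y * Tv f j d y := by
  have h1 := (hp_Dv hS hX hy i j a).pd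
  have h2 := (hp_Dv hS hX hy j i a).pd
  have h3 : Stmt.pd i (Stmt.pd j (X a)) y = Stmt.pd j (Stmt.pd i (X a)) y := pd_comm hS.opW (hX a) hy i j
  have h4 : ∀ b, Stmt.pd i (Tv f j b) y = Stmt.pd j (Tv f i b) y := pdT_symm hS hy i j
  have h5 := comm_alg (fun a b c => Stmt.chr G a b c (pt (f y) y))
    (fun e b c => Stmt.pd e (Stmt.chr G a b c) (pt (f y) y)) (fun b => Tv f i b y) (fun b => Tv f j b y)
    (fun b => X b y) (fun b => Stmt.pd i (X b) y) (fun b => Stmt.pd j (X b) y)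
    (fun b => Stmt.pd j (Tv f i b) y) (Stmt.pd j (Stmt.pd i (X a)) y) a
  unfold Dv at h1 h2 ⊢
  unfold Rm
  rw [h1, h2, h3]
  simp only [h4]
  exact h5

end Vale.Agent.P366.GC
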