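import Vale.Agent.P366.H896.D.G
import Vale.Agent.P366.H474.D.Comm
import Vale.Agent.P366.H474.G.Alg

/-! P366, Gauss-Codazzi: the energy density and the momentum density of the induced data are
components of the Einstein tensor. -/

open MeasureTheory Metric Filter Topology Set
open scoped ContDiff

noncomputable section
namespace Vale.Agent.P366.GC
open Vale.Agent.P366.Stmt Vale.Agent.P366.T2
open Vale.Agent.P366.H896 (CR pd_comm pd_congrU)
open Vale.Agent.P366.Kerr (pt tng con indG indK lapse ein ric)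

variable {n : ℕ} {G : Stmt.Field (n + 1)} {f : E n → ℝ} {U : Set (E (n + 1))} {W : Set (E n)}
  {X Y : Fin (n + 1) → E n → ℝ} {y : E n}

/-! ### the second fundamental form -/

lemma comm_all (hS : Sl G f U W) : Comm G f W := fun _ hX _ hy i j a => comm hS hX hy i j a

lemma cdK_symm {h K : Stmt.Field n} (hW : IsOpen W) (hKs : ∀ y ∈ W, ∀ i j, K y i j = K y j i)
    (hy : y ∈ W) (k i j : Fin n) : cdK h K k i j y = cdK h K k j i y := by
  unfold cdK
  rw [pd_congrU hW hy (fun y hy => hKs y hy i j) k]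
  congr 1
  refine Finset.sum_congr rfl fun l _ => ?_
  rw [hKs y hy l j, hKs y hy i l]
  ring

/-! ### the Ricci tensors -/

lemma Met.ric_RL {m : ℕ} {g : Stmt.Field m} {U : Set (E m)} (h : Met g U) {x : E m} (hx : x ∈ U)
    (b d : Fin m) : ric g b d x = ∑ a, ∑ k, Stmt.up g a k x * RL g a b k d x := by
  rw [h.ric_Rm hx]
  have h1 : ∀ k, ∑ a, Stmt.up g a k x * RL g a b k d x = Rm g k b k d x := by
    intro k
    have e1 : ∀ a, Stmt.up g a k x * RL g a b k d x = ∑ e, (Stmt.up g k a x * g x a e) * Rm g e b k d x := by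
      intro a
      rw [RL, Finset.mul_sum, h.up_symm hx a k]
      exact Finset.sum_congr rfl fun e _ => by ring
    simp only [e1]
    rw [Finset.sum_comm]
    simp only [← Finset.sum_mul, h.up_g hx]
    simp
  rw [Finset.sum_comm]
  exact Finset.sum_congr rfl fun k _ => (h1 k).symm

lemma scal_ric' {m : ℕ} (g : Stmt.Field m) (x : E m) :
    Stmt.scal g x = ∑ a, ∑ b, Stmt.up g a b x * ric g a b x := rfl

lemma sum4 {m : ℕ} (L : Fin m → Fin m → Fin m → Fin m → ℝ) (A Z X Y : Fin m → ℝ) :
    ∑ a, ∑ b, ∑ c, ∑ d, L a b c d * A a * Z b * X c * Y d = q4 L A Z X Y := by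
  rw [q4]
  refine Finset.sum_congr rfl fun a _ => ?_
  rw [Finset.sum_comm]
  refine Finset.sum_congr rfl fun c _ => ?_
  rw [Finset.sum_mul, Finset.sum_mul]
  refine Finset.sum_congr rfl fun b _ => ?_
  rw [Finset.sum_mul, Finset.sum_mul]
  exact Finset.sum_congr rfl fun d _ => by ring

lemma q4_gauss (hS : Sl G f U W) (hy : y ∈ W) (i j k l : Fin n) :
    q4 (fun a b c d => RL G a b c d (pt (f y) y)) (fun a => Tv f l a y) (fun a => Tv f k a y)
      (fun a => Tv f i a y) (fun a => Tv f j a y) = RL (indG G f) l k i j y +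
      indK G f y j k * indK G f y i l - indK G f y i k * indK G f y j l := by
  rw [← gauss_eq' hS (comm_all hS) hy, ← sum4]

lemma q4_codazzi (hS : Sl G f U W) (hy : y ∈ W) (i j k : Fin n) :
    q4 (fun a b c d => RL G a b c d (pt (f y) y)) (fun a => Nv G f a y) (fun a => Tv f k a y)
      (fun a => Tv f i a y) (fun a => Tv f j a y) =
      -(cdK (indG G f) (indK G f) i j k y - cdK (indG G f) (indK G f) j i k y) := by
  rw [← codazzi_eq' hS (comm_all hS) hy, ← sum4]

/-! ### the energy density -/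

lemma mu_alg (h K : Stmt.Field n) (y : E n) : ∑ k, ∑ l, Stmt.up h k l y * (ric h k l y +
      Stmt.tr h K y * K y k l - ∑ i, ∑ j, Stmt.up h i j y * (K y i k * K y j l)) =
      Stmt.scal h y + Stmt.tr h K y ^ 2 - Stmt.normSq h K y := by
  have e1 : ∀ k l, Stmt.up h k l y * (ric h k l y +
      Stmt.tr h K y * K y k l - ∑ i, ∑ j, Stmt.up h i j y * (K y i k * K y j l)) =
      Stmt.up h k l y * ric h k l y + Stmt.tr h K y * (Stmt.up h k l y * K y k l) -
        ∑ i, ∑ j, Stmt.up h i j y * Stmt.up h k l y * K y i k * K y j l := by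
    intro k l
    rw [mul_sub, mul_add, Finset.mul_sum]
    congr 1
    · ring
    · refine Finset.sum_congr rfl fun i _ => ?_
      rw [Finset.mul_sum]
      exact Finset.sum_congr rfl fun j _ => by ring
  have e2 : ∑ k, ∑ l, Stmt.tr h K y * (Stmt.up h k l y * K y k l) = Stmt.tr h K y ^ 2 := by
    simp only [← Finset.mul_sum]
    rw [pow_two]
    rfl
  have e3 : ∑ k, ∑ l, ∑ i, ∑ j, Stmt.up h i j y * Stmt.up h k l y * K y i k * K y j l =
      Stmt.normSq h K y := by
    rw [Stmt.normSq]
    calc ∑ k, ∑ l, ∑ i, ∑ j, Stmt.up h i j y * Stmt.up h k l y * K y i k * K y j l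
        = ∑ k, ∑ i, ∑ l, ∑ j, Stmt.up h i j y * Stmt.up h k l y * K y i k * K y j l :=
          Finset.sum_congr rfl fun k _ => Finset.sum_comm
      _ = ∑ i, ∑ k, ∑ l, ∑ j, Stmt.up h i j y * Stmt.up h k l y * K y i k * K y j l := Finset.sum_comm
      _ = _ := Finset.sum_congr rfl fun i _ => Finset.sum_congr rfl fun k _ => Finset.sum_comm
  simp only [e1, Finset.sum_add_distrib, Finset.sum_sub_distrib]
  rw [e2, e3, ← scal_ric']


theorem mu_eq (hS : Sl G f U W) (hy : y ∈ W) :
    Stmt.mu (indG G f) (indK G f) y =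
      ∑ a, ∑ b, ein G a b (pt (f y) y) * Nv G f a y * Nv G f b y := by
  have hp := hS.map y hy
  have hM := met_h hS
  have hN : ∑ a, ∑ b, G (pt (f y) y) a b * Nv G f a y * Nv G f b y = -1 := ip_N_N hS hy
  have h1 := ein_NN (G := G (pt (f y) y)) (Gi := fun a b => Stmt.up G a b (pt (f y) y))
    (T := fun j a => Tv f j a y) (N := fun a => Nv G f a y)
    (gi := fun i j => Stmt.up (indG G f) i j y) (fun a b => up_dec hS hy a b)
    (L := fun a b c d => RL G a b c d (pt (f y) y)) (fun a b c d => Met.RL_anti2 a b c d)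
    (fun a b c d => hS.met.RL_anti hp a b c d) (Rc := fun a b => ric G a b (pt (f y) y))
    (fun b d => hS.met.ric_RL hp b d) hN (s := Stmt.scal G (pt (f y) y)) (scal_ric' G _)
  have h2 : ∀ k l, ∑ i, ∑ j, Stmt.up (indG G f) i j y *
      q4 (fun a b c d => RL G a b c d (pt (f y) y)) (fun a => Tv f i a y) (fun a => Tv f k a y)
        (fun a => Tv f j a y) (fun a => Tv f l a y) =
      ric (indG G f) k l y + Stmt.tr (indG G f) (indK G f) y * indK G f y k l -
        ∑ i, ∑ j, Stmt.up (indG G f) i j y * (indK G f y i k * indK G f y j l) := by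
    intro k l
    have e1 : ∀ i j, Stmt.up (indG G f) i j y *
      q4 (fun a b c d => RL G a b c d (pt (f y) y)) (fun a => Tv f i a y) (fun a => Tv f k a y)
        (fun a => Tv f j a y) (fun a => Tv f l a y) =
        Stmt.up (indG G f) i j y * RL (indG G f) i k j l y +
        Stmt.up (indG G f) i j y * indK G f y i j * indK G f y k l -
        Stmt.up (indG G f) i j y * (indK G f y i l * indK G f y j k) := by
      intro i j
      rw [q4_gauss hS hy, K_symm hS hy l k, K_symm hS hy j i, K_symm hS hy l i]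
      ring
    simp only [e1, Finset.sum_add_distrib, Finset.sum_sub_distrib]
    rw [← hM.ric_RL hy]
    congr 1
    · congr 1
      rw [Stmt.tr, Finset.sum_mul]
      exact Finset.sum_congr rfl fun i _ => by rw [Finset.sum_mul]
    · rw [Finset.sum_comm]
      refine Finset.sum_congr rfl fun i _ => Finset.sum_congr rfl fun j _ => ?_
      rw [hM.up_symm hy j i]
      ring
  simp only [h2] at h1
  have h3 : Stmt.mu (indG G f) (indK G f) y = (Stmt.scal (indG G f) y + Stmt.tr (indG G f) (indK G f) y ^ 2 -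
      Stmt.normSq (indG G f) (indK G f) y) / 2 := rfl
  have h4 := mu_alg (indG G f) (indK G f) y
  have h6 := h1.trans h4
  have h7 : Stmt.mu (indG G f) (indK G f) y = ∑ a, ∑ b, (ric G a b (pt (f y) y) -
      Stmt.scal G (pt (f y) y) * G (pt (f y) y) a b / 2) * Nv G f a y * Nv G f b y := by
    rw [h3]
    linarith [h6]
  exact h7

/-! ### the momentum density -/

theorem mom_ein (hS : Sl G f U W) (hy : y ∈ W) (j : Fin n) :
    Stmt.mom (indG G f) (indK G f) j y =
      ∑ a, ∑ b, ein G a b (pt (f y) y) * Nv G f a y * Tv f j b y := by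
  have hp := hS.map y hy
  have hM := met_h hS
  have hN : ∑ a, ∑ b, G (pt (f y) y) a b * Nv G f a y * Tv f j b y = 0 := ip_N_T hS hy j
  have hKs : ∀ y ∈ W, ∀ i j, indK G f y i j = indK G f y j i := fun y hy i j =>
    K_symm hS hy i j
  have h1 := ein_NT (G := G (pt (f y) y)) (Gi := fun a b => Stmt.up G a b (pt (f y) y))
    (T := fun j a => Tv f j a y) (N := fun a => Nv G f a y)
    (gi := fun i j => Stmt.up (indG G f) i j y) (fun a b => up_dec hS hy a b)
    (L := fun a b c d => RL G a b c d (pt (f y) y))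
    (fun a b c d => hS.met.RL_anti hp a b c d) (Rc := fun a b => ric G a b (pt (f y) y))
    (fun b d => hS.met.ric_RL hp b d) (r := j) hN (Stmt.scal G (pt (f y) y))
  rw [mom_eq hM (fun i j => (cr_K hS i j).le (by norm_num)) hKs hy]
  unfold ein
  rw [h1, ← Finset.sum_neg_distrib]
  refine Finset.sum_congr rfl fun i _ => ?_
  rw [← Finset.sum_neg_distrib]
  refine Finset.sum_congr rfl fun k _ => ?_
  rw [q4_codazzi hS hy, cdK_symm hS.opW hKs hy k i j, cdK_symm hS.opW hKs hy j i k]
  ring

end Vale.Agent.P366.GC
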